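import Vale.Agent.P093.Rep.Regular

/-!
# P093: banded elements of an algebra with a covariant pair
-/

namespace P093.Rep

open scoped ENNReal ComplexConjugate InnerProductSpace
open Filter Topology

noncomputable section

/-- Matrix entries vanish off a band of width `K`. -/
def IsBanded (T : H →L[ℂ] H) (K : ℕ) : Prop :=
  ∀ i j : ℤ, (K : ℤ) < |i - j| → coeff T i j = 0

theorem coeff_add (S T : H →L[ℂ] H) (i j : ℤ) : coeff (S + T) i j = coeff S i j + coeff T i j := rfl

theorem coeff_sub (S T : H →L[ℂ] H) (i j : ℤ) : coeff (S - T) i j = coeff S i j - coeff T i j := rfl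

theorem coeff_smul (c : ℂ) (T : H →L[ℂ] H) (i j : ℤ) : coeff (c • T) i j = c * coeff T i j := rfl

theorem coeff_zero (i j : ℤ) : coeff 0 i j = 0 := rfl

theorem coeff_one (i j : ℤ) : coeff 1 i j = if i = j then 1 else 0 := by
  simp [coeff, lp.single_apply, Pi.single_apply]

theorem coeff_eq_inner (T : H →L[ℂ] H) (i j : ℤ) :
    coeff T i j = ⟪lp.single 2 i (1 : ℂ), T (lp.single 2 j 1)⟫_ℂ := by
  rw [lp.inner_single_left]
  simp [coeff]

theorem coeff_star (T : H →L[ℂ] H) (i j : ℤ) : coeff (star T) i j = conj (coeff T j i) := by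
  rw [coeff_eq_inner, coeff_eq_inner, ContinuousLinearMap.star_eq_adjoint,
    ContinuousLinearMap.adjoint_inner_right, inner_conj_symm]

/-- Product with a banded operator on the right: finitely many terms. -/
theorem coeff_mul (S T : H →L[ℂ] H) (i j : ℤ) {s : Finset ℤ}
    (hs : ∀ k, k ∉ s → coeff T k j = 0) :
    coeff (S * T) i j = ∑ k ∈ s, coeff S i k * coeff T k j := by
  have hcol : T (lp.single 2 j 1) = ∑ k ∈ s, coeff T k j • lp.single 2 k (1 : ℂ) := by
    ext n
    simp only [lp.coeFn_sum, Finset.sum_apply, lp.coeFn_smul, Pi.smul_apply, lp.single_apply,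
      Pi.single_apply, smul_eq_mul, mul_ite, mul_one, mul_zero, Finset.sum_ite_eq]
    by_cases hn : n ∈ s
    · simp [hn, coeff]
    · simpa [hn, coeff] using hs n hn
  show S (T (lp.single 2 j 1)) i = _
  rw [hcol, map_sum, lp.coeFn_sum, Finset.sum_apply]
  refine Finset.sum_congr rfl fun k _ => ?_
  rw [map_smul, lp.coeFn_smul, Pi.smul_apply, smul_eq_mul, mul_comm]
  rfl

theorem IsBanded.coeff_mul {T : H →L[ℂ] H} {K : ℕ} (hT : IsBanded T K) (S : H →L[ℂ] H)
    (i j : ℤ) :
    coeff (S * T) i j = ∑ k ∈ Finset.Icc (j - K) (j + K), coeff S i k * coeff T k j :=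
  Rep.coeff_mul S T i j fun k hk => hT k j (by
    simp only [Finset.mem_Icc] at hk; rw [lt_abs]; omega)

theorem IsBanded.mono {T : H →L[ℂ] H} {K L : ℕ} (hT : IsBanded T K) (h : K ≤ L) : IsBanded T L :=
  fun i j hij => hT i j (lt_of_le_of_lt (by exact_mod_cast h) hij)

theorem IsBanded.mul {S T : H →L[ℂ] H} {K L : ℕ} (hS : IsBanded S K) (hT : IsBanded T L) :
    IsBanded (S * T) (K + L) := by
  intro i j hij
  rw [hT.coeff_mul]
  refine Finset.sum_eq_zero fun k hk => ?_
  rw [hS i k ?_, zero_mul]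
  simp only [Finset.mem_Icc] at hk
  rw [lt_abs] at hij ⊢
  push_cast at hij
  omega

theorem IsBanded.star {T : H →L[ℂ] H} {K : ℕ} (hT : IsBanded T K) : IsBanded (star T) K := by
  intro i j hij
  rw [coeff_star, hT j i (by rwa [abs_sub_comm]), map_zero]

theorem coeff_shiftOp (k i j : ℤ) : coeff (shiftOp k) i j = if i = j + k then 1 else 0 := by
  by_cases hk : i = j + k
  · subst hk; simp [coeff]
  · simp [coeff, hk, show i - k ≠ j by omega]

variable {X : Type*} [TopologicalSpace X] [CompactSpace X]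

omit [CompactSpace X] in
theorem continuous_orb (h : X ≃ₜ X) (n : ℤ) : Continuous fun x => orb h x n := by
  induction n using Int.induction_on with
  | zero => simp only [orb_zero]; exact continuous_id'
  | succ n ih => simpa only [orb_succ] using h.continuous.comp' ih
  | pred n ih => simpa only [orb_sub_one] using h.symm.continuous.comp' ih

/-- A C*-algebra carrying a covariant pair that generates it, together with its orbit
representations. A universal crossed product has all this structure. -/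
structure OrbitRep (h : X ≃ₜ X) (A : Type*) [CStarAlgebra A] where
  ι : C(X, ℂ) →⋆ₐ[ℂ] A
  u : unitary A
  π : X → (A →⋆ₐ[ℂ] (H →L[ℂ] H))
  π_ι : ∀ x f, π x (ι f) = diag h x f
  π_u : ∀ x, π x (u : A) = (shiftU : H →L[ℂ] H)
  gen : (StarAlgebra.adjoin ℂ (Set.range ι ∪ {(u : A)})).topologicalClosure = ⊤

namespace OrbitRep

variable {h : X ≃ₜ X} {A : Type*} [CStarAlgebra A] (R : OrbitRep h A)

/-- The entries of an element, as functions of the point. -/
def entry (a : A) (i j : ℤ) (x : X) : ℂ := coeff (R.π x a) i j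

/-- An element whose representations are banded with continuous entries. -/
def Band (a : A) (K : ℕ) : Prop :=
  (∀ x, IsBanded (R.π x a) K) ∧ ∀ i j, Continuous (R.entry a i j)

theorem band_algebraMap (c : ℂ) : R.Band (algebraMap ℂ A c) 0 := by
  have e : ∀ x i j, coeff (R.π x (algebraMap ℂ A c)) i j = if i = j then c else 0 := fun x i j => by
    rw [AlgHomClass.commutes, Algebra.algebraMap_eq_smul_one, coeff_smul, coeff_one]; simp
  refine ⟨fun x i j hij => ?_, fun i j => ?_⟩
  · rw [e, if_neg]; rintro rfl; simp at hij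
  · unfold entry; simp only [e]; exact continuous_const

theorem band_ι (f : C(X, ℂ)) : R.Band (R.ι f) 0 := by
  have e : ∀ x i j, coeff (R.π x (R.ι f)) i j = if i = j then f (orb h x i) else 0 := fun x i j => by
    have := coeff_diag_shift h x f 0 i j
    rw [shiftOp_zero, mul_one, add_zero] at this
    rw [R.π_ι]; exact this
  refine ⟨fun x i j hij => ?_, fun i j => ?_⟩
  · rw [e, if_neg]; rintro rfl; simp at hij
  · unfold entry; simp only [e]
    split_ifs
    · exact f.continuous.comp' (continuous_orb h i)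
    · exact continuous_const

theorem band_u : R.Band (R.u : A) 1 := by
  have e : ∀ x i j, coeff (R.π x (R.u : A)) i j = if i = j + 1 then 1 else 0 := fun x i j => by
    rw [R.π_u]; exact coeff_shiftOp 1 i j
  refine ⟨fun x i j hij => ?_, fun i j => ?_⟩
  · rw [e, if_neg]; rintro rfl; simp at hij
  · unfold entry; simp only [e]; exact continuous_const

theorem Band.add {a b : A} {K L : ℕ} (ha : R.Band a K) (hb : R.Band b L) :
    R.Band (a + b) (max K L) := by
  refine ⟨fun x i j hij => ?_, fun i j => ?_⟩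
  · rw [map_add, coeff_add, (ha.1 x).mono (le_max_left K L) i j hij,
      (hb.1 x).mono (le_max_right K L) i j hij, add_zero]
  · unfold entry; simp only [map_add, coeff_add]
    exact (ha.2 i j).add (hb.2 i j)

theorem Band.mul {a b : A} {K L : ℕ} (ha : R.Band a K) (hb : R.Band b L) :
    R.Band (a * b) (K + L) := by
  refine ⟨fun x => by rw [map_mul]; exact (ha.1 x).mul (hb.1 x), fun i j => ?_⟩
  unfold entry; simp only [map_mul, fun x => (hb.1 x).coeff_mul (R.π x a) i j]
  exact continuous_finsetSum _ fun k _ => (ha.2 i k).mul (hb.2 k j)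

theorem Band.star {a : A} {K : ℕ} (ha : R.Band a K) : R.Band (Star.star a) K := by
  refine ⟨fun x => by rw [map_star]; exact (ha.1 x).star, fun i j => ?_⟩
  unfold entry; simp only [map_star, coeff_star]
  exact Complex.continuous_conj.comp' (ha.2 j i)

theorem exists_band_approx (a : A) {ε : ℝ} (hε : 0 < ε) :
    ∃ b K, R.Band b K ∧ ‖a - b‖ < ε := by
  have ha : a ∈ closure (StarAlgebra.adjoin ℂ (Set.range R.ι ∪ {(R.u : A)}) : Set A) := by
    rw [← StarSubalgebra.topologicalClosure_coe, R.gen]; trivial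
  obtain ⟨b, hb, hd⟩ := Metric.mem_closure_iff.1 ha ε hε
  suffices ∃ K, R.Band b K by
    obtain ⟨K, hK⟩ := this; exact ⟨b, K, hK, by rwa [← dist_eq_norm]⟩
  refine StarAlgebra.adjoin_induction (p := fun z _ => ∃ K, R.Band z K) ?_ ?_ ?_ ?_ ?_ hb
  · rintro z (⟨f, rfl⟩ | rfl)
    · exact ⟨0, R.band_ι f⟩
    · exact ⟨1, R.band_u⟩
  · exact fun c => ⟨0, R.band_algebraMap c⟩
  · exact fun z w _ _ ⟨K, hK⟩ ⟨L, hL⟩ => ⟨_, Band.add R hK hL⟩
  · exact fun z w _ _ ⟨K, hK⟩ ⟨L, hL⟩ => ⟨_, Band.mul R hK hL⟩
  · exact fun z _ ⟨K, hK⟩ => ⟨_, Band.star R hK⟩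

theorem norm_entry_le (a : A) (i j : ℤ) (x : X) : ‖R.entry a i j x‖ ≤ ‖a‖ :=
  (norm_coeff_le _ i j).trans (NonUnitalStarAlgHom.norm_apply_le (R.π x) a)

/-- All entries depend continuously on the point. -/
theorem continuous_entry (a : A) (i j : ℤ) : Continuous (R.entry a i j) := by
  refine continuous_of_uniform_approx_of_continuous fun V hV => ?_
  obtain ⟨ε, hε, hεV⟩ := Metric.mem_uniformity_dist.1 hV
  obtain ⟨b, K, hb, hd⟩ := R.exists_band_approx a hε
  refine ⟨R.entry b i j, hb.2 i j, fun x => hεV ?_⟩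
  rw [dist_eq_norm]
  calc ‖R.entry a i j x - R.entry b i j x‖ = ‖R.entry (a - b) i j x‖ := by
        unfold entry; simp only [map_sub, coeff_sub]
    _ ≤ ‖a - b‖ := R.norm_entry_le _ i j x
    _ < ε := hd

end OrbitRep

end

end P093.Rep
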