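import Vale.Agent.P093.Rep.Banded

/-!
# P093: orbit compression of Cuntz subequivalence

If `xₘᴴ b xₘ → a` in matrices over an algebra with orbit representations, then for each
`ε` there is a band width `K` such that for every `N` the `N`-window of `a` at `x` is
entrywise `ε`-close to `Yᴴ B Y`, `B` the window of `b` on `[-K, N + K)` and `Y` continuous in `x`.
-/

namespace P093.Rep

open scoped ComplexConjugate Matrix
open Filter Topology

noncomputable section

variable {X : Type*} [TopologicalSpace X]

theorem orb_orb (h : X ≃ₜ X) (x : X) (m n : ℤ) : orb h (orb h x m) n = orb h x (n + m) := by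
  simp [orb, zpow_add]

namespace OrbitRep

variable [CompactSpace X] {h : X ≃ₜ X} {A : Type*} [CStarAlgebra A] (R : OrbitRep h A)

theorem entry_ι (f : C(X, ℂ)) (i j : ℤ) (x : X) :
    R.entry (R.ι f) i j x = if i = j then f (orb h x i) else 0 := by
  have := coeff_diag_shift h x f 0 i j
  rw [shiftOp_zero, mul_one, add_zero] at this
  unfold entry
  rw [R.π_ι]
  exact this

theorem entry_sum {m : Type*} (s : Finset m) (a : m → A) (i j : ℤ) (x : X) :
    R.entry (∑ p ∈ s, a p) i j x = ∑ p ∈ s, R.entry (a p) i j x := by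
  simp only [entry, coeff, map_sum, FunLike.coe_sum, Finset.sum_apply,
    lp.coeFn_sum]

/-- The window of a matrix over `A` at `x`. -/
def win {m κ μ : Type*} (a : Matrix m m A) (e : κ → ℤ) (e' : μ → ℤ) (x : X) :
    Matrix (m × κ) (m × μ) ℂ :=
  fun p q => R.entry (a p.1 q.1) (e p.2) (e' q.2) x

theorem continuous_win {m κ μ : Type*} (a : Matrix m m A) (e : κ → ℤ) (e' : μ → ℤ) :
    Continuous (R.win a e e') :=
  continuous_pi fun _ => continuous_pi fun _ => R.continuous_entry _ _ _

/-- The outer window `[-K, N + K)`. -/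
def outer (N K : ℕ) (i : Fin (N + 2 * K)) : ℤ := (i : ℤ) - K

/-- The inner window `[0, N)`. -/
def inner (N : ℕ) (i : Fin N) : ℤ := (i : ℤ)

theorem outer_injective (N K : ℕ) : Function.Injective (outer N K) := fun i j hij =>
  Fin.ext (by simp only [outer] at hij; omega)

theorem entry_conj_mul {y z b : A} {K : ℕ} (hy : R.Band y K) (hz : R.Band z K) (N : ℕ)
    (i j : Fin N) (x : X) :
    R.entry (Star.star y * b * z) (inner N i) (inner N j) x
      = ∑ k : Fin (N + 2 * K), ∑ l : Fin (N + 2 * K),
          conj (R.entry y (outer N K l) (inner N i) x) * R.entry b (outer N K l) (outer N K k) x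
            * R.entry z (outer N K k) (inner N j) x := by
  classical
  have out : ∀ w : A, R.Band w K → ∀ j : Fin N, ∀ k : ℤ, k ∉ Finset.univ.image (outer N K) →
      coeff (R.π x w) k (inner N j) = 0 := by
    intro w hw j k hk
    apply hw.1 x
    by_contra hle
    rw [lt_abs, not_or] at hle
    simp only [inner] at hle
    have := j.isLt
    exact hk (Finset.mem_image.2 ⟨⟨(k + K).toNat, by omega⟩, Finset.mem_univ _, by
      simp only [outer]; omega⟩)
  unfold entry
  rw [map_mul, coeff_mul _ _ _ _ (out z hz j),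
    Finset.sum_image fun a _ b _ hab => outer_injective N K hab]
  refine Finset.sum_congr rfl fun k _ => ?_
  have h2 : Star.star y * b = Star.star (Star.star b * y) := by rw [star_mul, star_star]
  rw [h2, map_star, coeff_star, map_mul, coeff_mul _ _ _ _ (out y hy i),
    Finset.sum_image fun a _ b _ hab => outer_injective N K hab, map_sum, Finset.sum_mul]
  refine Finset.sum_congr rfl fun l _ => ?_
  rw [map_star, coeff_star, map_mul, Complex.conj_conj]
  ring

/-- Exact compression for banded matrices. -/
theorem win_conj {m : Type*} [Fintype m] {y b : Matrix m m A} {K : ℕ}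
    (hy : ∀ p q, R.Band (y p q) K) (N : ℕ) (x : X) :
    R.win (yᴴ * b * y) (inner N) (inner N) x
      = (R.win y (outer N K) (inner N) x)ᴴ * R.win b (outer N K) (outer N K) x
          * R.win y (outer N K) (inner N) x := by
  ext ⟨p, i⟩ ⟨q, j⟩
  simp only [win, Matrix.mul_apply, Matrix.conjTranspose_apply, Fintype.sum_prod_type,
    Finset.sum_mul, R.entry_sum, R.entry_conj_mul (hy _ _) (hy _ _), RCLike.star_def]
  refine Finset.sum_congr rfl fun r _ => ?_
  rw [Finset.sum_comm]

theorem Band.mono {a : A} {K L : ℕ} (ha : R.Band a K) (hKL : K ≤ L) : R.Band a L :=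
  ⟨fun x => (ha.1 x).mono hKL, ha.2⟩

/-- A matrix is a limit of banded matrices. -/
theorem mem_closure_band {m : Type*} [Fintype m] (a : Matrix m m A) :
    a ∈ closure {y : Matrix m m A | ∃ K, ∀ p q, R.Band (y p q) K} := by
  have ha : a ∈ closure (Set.univ.pi fun _ : m => Set.univ.pi fun _ : m =>
      {b : A | ∃ K, R.Band b K}) := by
    rw [closure_pi_set]
    intro p _
    rw [closure_pi_set]
    intro q _
    exact Metric.mem_closure_iff.2 fun ε hε => by
      obtain ⟨b, K, hb, hd⟩ := R.exists_band_approx (a p q) hε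
      exact ⟨b, ⟨K, hb⟩, by rwa [dist_eq_norm]⟩
  refine closure_mono (fun y hy => ?_) ha
  have hy' : ∀ p q, ∃ K, R.Band (y p q) K := fun p q => hy p trivial q trivial
  choose K hK using hy'
  exact ⟨Finset.univ.sup fun p => Finset.univ.sup (K p), fun p q => Band.mono R (hK p q)
    ((Finset.le_sup (f := K p) (Finset.mem_univ q)).trans
      (Finset.le_sup (f := fun p => Finset.univ.sup (K p)) (Finset.mem_univ p)))⟩

/-- Orbit compression of a Cuntz subequivalence. -/
theorem exists_window_approx {m : Type*} [Fintype m] {a b : Matrix m m A}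
    {z : ℕ → Matrix m m A} (hz : Tendsto (fun n => (z n)ᴴ * b * z n) atTop (𝓝 a))
    {ε : ℝ} (hε : 0 < ε) :
    ∃ K : ℕ, ∀ N : ℕ, ∃ Y : X → Matrix (m × Fin (N + 2 * K)) (m × Fin N) ℂ, Continuous Y ∧
      ∀ x p q, ‖R.win a (inner N) (inner N) x p q
        - ((Y x)ᴴ * R.win b (outer N K) (outer N K) x * Y x) p q‖ < ε := by
  let U : Set (Matrix m m A) := {c | ∀ p q, ‖a p q - c p q‖ < ε}
  have hU : IsOpen U := by
    simp only [U, Set.ofPred_forall]
    exact isOpen_iInter_of_finite fun p => isOpen_iInter_of_finite fun q =>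
      isOpen_lt (continuous_norm.comp' (continuous_const.sub
        (continuous_id.matrix_elem p q))) continuous_const
  have haU : a ∈ U := fun p q => by simpa using hε
  obtain ⟨n, hn⟩ := (hz.eventually (hU.mem_nhds haU)).exists
  have hc : Continuous fun y : Matrix m m A => yᴴ * b * y := by fun_prop
  obtain ⟨y, hyU, K, hy⟩ := mem_closure_iff.1 (R.mem_closure_band (z n)) _ (hU.preimage hc) hn
  refine ⟨K, fun N => ⟨R.win y (outer N K) (inner N), R.continuous_win _ _ _, fun x p q => ?_⟩⟩
  rw [← R.win_conj hy]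
  show ‖R.entry (a p.1 q.1) _ _ x - R.entry ((yᴴ * b * y) p.1 q.1) _ _ x‖ < ε
  have : R.entry (a p.1 q.1) (inner N p.2) (inner N q.2) x
      - R.entry ((yᴴ * b * y) p.1 q.1) (inner N p.2) (inner N q.2) x
      = R.entry (a p.1 q.1 - (yᴴ * b * y) p.1 q.1) (inner N p.2) (inner N q.2) x := by
    unfold entry; simp only [map_sub, coeff_sub]
  rw [this]
  exact (R.norm_entry_le _ _ _ x).trans_lt (hyU p.1 q.1)

end OrbitRep

end

end P093.Rep
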