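import Vale.Agent.P093.Rep.Compress

/-!
# P093: compressed subequivalence gives an injective bundle map, uniformly in the window

For diagonal `a` the band width depends only on a lower bound `η` of the entries used, not on
the length of the window.
-/

namespace P093.Rep

open scoped ComplexConjugate Matrix ComplexOrder InnerProductSpace
open Filter Topology

noncomputable section

theorem norm_dotProduct_le (T : H →L[ℂ] H) {κ : Type*} [Fintype κ] (e : κ → ℤ)
    (he : Function.Injective e) (v w : κ → ℂ) :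
    ‖∑ i, ∑ j, conj (v i) * coeff T (e i) (e j) * w j‖
      ≤ ‖T‖ * (((∑ i, ‖v i‖ ^ 2) + ∑ j, ‖w j‖ ^ 2) / 2) := by
  let emb : (κ → ℂ) → H := fun v => ∑ i, v i • lp.single 2 (e i) (1 : ℂ)
  have hat : ∀ (v : κ → ℂ) i, emb v (e i) = v i := by
    intro v i
    simp only [emb, lp.coeFn_sum, Finset.sum_apply, lp.coeFn_smul, Pi.smul_apply, lp.single_apply,
      smul_eq_mul]
    rw [Finset.sum_eq_single i (fun j _ hj => by
      rw [Pi.single_eq_of_ne fun h => hj (he h).symm, mul_zero]) (by simp)]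
    simp
  have hn : ∀ v : κ → ℂ, ‖emb v‖ ^ 2 = ∑ i, ‖v i‖ ^ 2 := by
    intro v
    rw [← inner_self_eq_norm_sq (𝕜 := ℂ) (emb v)]
    conv_lhs => arg 2; arg 2; simp only [emb]
    simp only [sum_inner, inner_smul_left, lp.inner_single_left, map_sum, hat]
    exact Finset.sum_congr rfl fun i _ => by
      simp [← Complex.normSq_eq_norm_sq, Complex.normSq_apply]
  have key : ⟪emb v, T (emb w)⟫_ℂ = ∑ i, ∑ j, conj (v i) * coeff T (e i) (e j) * w j := by
    simp only [emb, map_sum, map_smul, sum_inner, inner_sum, inner_smul_left, inner_smul_right,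
      lp.inner_single_left, coeff, RCLike.inner_apply, map_one, Finset.mul_sum]
    rw [Finset.sum_comm]
    refine Finset.sum_congr rfl fun i _ => Finset.sum_congr rfl fun j _ => ?_
    ring
  rw [← key]
  refine (norm_inner_le_norm _ _).trans ?_
  refine (mul_le_mul_of_nonneg_left (T.le_opNorm _) (norm_nonneg _)).trans ?_
  rw [← hn, ← hn, mul_left_comm]
  refine mul_le_mul_of_nonneg_left ?_ (norm_nonneg T)
  nlinarith [sq_nonneg (‖emb v‖ - ‖emb w‖)]

variable {X : Type*} [TopologicalSpace X] [CompactSpace X] {h : X ≃ₜ X}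
  {A : Type*} [CStarAlgebra A]

namespace OrbitRep

variable (R : OrbitRep h A)

/-- The quadratic form of a window is bounded by the norms of the entries, uniformly. -/
theorem norm_win_form_le {m κ : Type*} [Fintype m] [Fintype κ] (c : Matrix m m A) (e : κ → ℤ)
    (he : Function.Injective e) (x : X) (v : m × κ → ℂ) {ε : ℝ}
    (hc : ∀ p q, ‖c p q‖ ≤ ε) :
    ‖star v ⬝ᵥ (R.win c e e x *ᵥ v)‖ ≤ ε * Fintype.card m * ∑ p, ‖v p‖ ^ 2 := by
  have h1 : star v ⬝ᵥ (R.win c e e x *ᵥ v)
      = ∑ p, ∑ q, ∑ i, ∑ j, conj (v (p, i)) * coeff (R.π x (c p q)) (e i) (e j) * v (q, j) := by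
    simp only [dotProduct, Matrix.mulVec, Fintype.sum_prod_type, Finset.mul_sum, win, entry,
      Pi.star_apply, RCLike.star_def, ← mul_assoc]
    exact Finset.sum_congr rfl fun p _ => Finset.sum_comm
  rw [h1]
  refine (norm_sum_le _ _).trans ((Finset.sum_le_sum fun p _ => (norm_sum_le _ _).trans
    (Finset.sum_le_sum fun q _ => (norm_dotProduct_le _ e he _ _).trans
      (mul_le_mul_of_nonneg_right
        ((NonUnitalStarAlgHom.norm_apply_le (R.π x) (c p q)).trans (hc p q))
        (by positivity)))).trans ?_)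
  rw [Fintype.sum_prod_type]
  simp only [add_div, mul_add, Finset.sum_add_distrib, Finset.sum_const, Finset.card_univ,
    nsmul_eq_mul, ← Finset.mul_sum, ← Finset.sum_div]
  exact le_of_eq (by ring)

/-- The window of a diagonal of functions is diagonal. -/
theorem win_diagonal_form {m κ : Type*} [Fintype m] [Fintype κ] [DecidableEq m]
    (d : m → C(X, ℂ)) (e : κ → ℤ) (he : Function.Injective e) (x : X) (v : m × κ → ℂ) :
    star v ⬝ᵥ (R.win (Matrix.diagonal fun p => R.ι (d p)) e e x *ᵥ v)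
      = ∑ p : m × κ, d p.1 (orb h x (e p.2)) * (‖v p‖ ^ 2 : ℝ) := by
  classical
  have hw : R.win (Matrix.diagonal fun p => R.ι (d p)) e e x
      = Matrix.diagonal fun p : m × κ => d p.1 (orb h x (e p.2)) := by
    ext ⟨p, i⟩ ⟨q, j⟩
    simp only [win, Matrix.diagonal_apply, Prod.mk.injEq]
    by_cases hp : p = q
    · subst hp
      simp [entry_ι, he.eq_iff]
    · simp [hp, entry, coeff_zero]
  rw [hw, dotProduct]
  refine Finset.sum_congr rfl fun p _ => ?_
  rw [Matrix.mulVec_diagonal, Pi.star_apply, ← Complex.normSq_eq_norm_sq,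
    Complex.normSq_eq_conj_mul_self, RCLike.star_def]
  ring

/-- If a diagonal of functions is subequivalent to `b`, then for each `η > 0` a single width `K`
works for all windows: there is a continuous `Y` with `B Y` injective on every vector supported
where the diagonal entries are at least `η`. -/
theorem exists_injective_compression {m : Type*} [Fintype m] [DecidableEq m]
    (d : m → C(X, ℂ)) {b : Matrix m m A} {z : ℕ → Matrix m m A}
    (hz : Tendsto (fun n => (z n)ᴴ * b * z n) atTop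
      (𝓝 (Matrix.diagonal fun p => R.ι (d p)))) {η : ℝ} (hη : 0 < η) :
    ∃ K : ℕ, ∀ N : ℕ, ∃ Y : X → Matrix (m × Fin (N + 2 * K)) (m × Fin N) ℂ, Continuous Y ∧
      ∀ x (v : m × Fin N → ℂ), v ≠ 0 →
        (∀ p i, v (p, i) ≠ 0 → η ≤ (d p (orb h x (i : ℤ))).re) →
          R.win b (outer N K) (outer N K) x *ᵥ (Y x *ᵥ v) ≠ 0 := by
  set a : Matrix m m A := Matrix.diagonal fun p => R.ι (d p) with ha
  set ε := η / (Fintype.card m + 1) with hεdef
  have hε : 0 < ε := by positivity
  let U : Set (Matrix m m A) := {c | ∀ p q, ‖a p q - c p q‖ < ε}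
  have hU : IsOpen U := by
    simp only [U, Set.ofPred_forall]
    exact isOpen_iInter_of_finite fun p => isOpen_iInter_of_finite fun q =>
      isOpen_lt (continuous_norm.comp' (continuous_const.sub
        (continuous_id.matrix_elem p q))) continuous_const
  have haU : a ∈ U := fun p q => by simpa using hε
  obtain ⟨n, hn⟩ := (hz.eventually (hU.mem_nhds haU)).exists
  have hc : Continuous fun y : Matrix m m A => yᴴ * b * y := by fun_prop
  obtain ⟨y, hyU, K, hy⟩ := mem_closure_iff.1 (R.mem_closure_band (z n)) _ (hU.preimage hc) hn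
  refine ⟨K, fun N => ⟨R.win y (outer N K) (inner N), R.continuous_win _ _ _,
    fun x v hv hsupp h0 => ?_⟩⟩
  have hinj : Function.Injective (inner N) := fun i j hij => Fin.ext (by simpa [inner] using hij)
  have hle := R.norm_win_form_le (a - yᴴ * b * y) (inner N) hinj x v (fun p q => (hyU p q).le)
  have hsub : R.win (a - yᴴ * b * y) (inner N) (inner N) x
      = R.win a (inner N) (inner N) x - R.win (yᴴ * b * y) (inner N) (inner N) x := by
    ext p q
    simp [win, entry, coeff_sub]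
  have hz0 : star v ⬝ᵥ (R.win (yᴴ * b * y) (inner N) (inner N) x *ᵥ v) = 0 := by
    rw [R.win_conj hy, Matrix.mul_assoc, ← Matrix.mulVec_mulVec, ← Matrix.mulVec_mulVec,
      h0, Matrix.mulVec_zero, dotProduct_zero]
  rw [hsub, Matrix.sub_mulVec, dotProduct_sub, hz0, sub_zero, ha, R.win_diagonal_form d _ hinj]
    at hle
  have hS : 0 < ∑ p, ‖v p‖ ^ 2 := by
    obtain ⟨p, hp⟩ : ∃ p, v p ≠ 0 := Function.ne_iff.1 hv
    exact Finset.sum_pos' (fun p _ => by positivity)
      ⟨p, Finset.mem_univ p, by have := norm_pos_iff.2 hp; positivity⟩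
  have hlow : η * ∑ p, ‖v p‖ ^ 2
      ≤ (∑ p : m × Fin N, d p.1 (orb h x (inner N p.2)) * (‖v p‖ ^ 2 : ℝ)).re := by
    rw [Complex.re_sum, Finset.mul_sum]
    refine Finset.sum_le_sum fun p _ => ?_
    rw [Complex.re_mul_ofReal]
    by_cases hp : v p = 0
    · simp [hp]
    · exact mul_le_mul_of_nonneg_right (hsupp p.1 p.2 hp) (by positivity)
  have hlt : ε * Fintype.card m < η := by
    rw [hεdef, div_mul_eq_mul_div, div_lt_iff₀ (by positivity)]
    nlinarith
  nlinarith [hlow.trans ((Complex.re_le_norm _).trans hle)]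

end OrbitRep

/-- A positive window count persists above a small threshold, for all long windows. -/
theorem exists_threshold (g : C(X, ℝ)) {c ε : ℝ} (hε : 0 < ε) {N₀ : ℕ} (hN₀ : 0 < N₀)
    (hc : ∀ x, c * N₀ ≤ (((Finset.range N₀).filter fun i : ℕ => 0 < g ((⇑h)^[i] x)).card : ℝ)) :
    ∃ η : ℝ, 0 < η ∧ ∃ N₁ : ℕ, ∀ x, ∀ N ≥ N₁,
      (c - ε) * N ≤ (((Finset.range N).filter fun i : ℕ => η ≤ g ((⇑h)^[i] x)).card : ℝ) := by
  let O : ℕ → Set X := fun k => {x | c * N₀ ≤
    ((((Finset.range N₀).filter fun i : ℕ => (1 : ℝ) / (k + 1) < g ((⇑h)^[i] x)).card : ℝ))}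
  have hO : ∀ k, IsOpen (O k) := by
    intro k
    rw [isOpen_iff_mem_nhds]
    intro x hx
    have : ∀ᶠ y in 𝓝 x, ∀ i ∈ (Finset.range N₀).filter fun i : ℕ => (1 : ℝ) / (k + 1) < g ((⇑h)^[i] x),
        (1 : ℝ) / (k + 1) < g ((⇑h)^[i] y) := by
      rw [Filter.eventually_all_finset]
      exact fun i hi => (g.continuous.comp' (h.continuous.iterate i)).continuousAt.eventually_const_lt
        (Finset.mem_filter.1 hi).2
    filter_upwards [this] with y hy
    simp only [O, Set.mem_ofPred_eq] at hx ⊢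
    refine le_trans hx ?_
    exact_mod_cast Finset.card_le_card fun i hi =>
      Finset.mem_filter.2 ⟨(Finset.mem_filter.1 hi).1, hy i hi⟩
  have hmono : Monotone O := by
    intro k l hkl x hx
    simp only [O, Set.mem_ofPred_eq] at hx ⊢
    refine le_trans hx ?_
    refine Nat.cast_le.2 (Finset.card_le_card fun i hi => ?_)
    obtain ⟨h1, h2⟩ := Finset.mem_filter.1 hi
    exact Finset.mem_filter.2 ⟨h1, lt_of_le_of_lt (by gcongr) h2⟩
  have hcov : Set.univ ⊆ ⋃ k, O k := by
    intro x _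
    have : ∀ᶠ k : ℕ in atTop, ∀ i ∈ (Finset.range N₀).filter fun i : ℕ => 0 < g ((⇑h)^[i] x),
        (1 : ℝ) / (k + 1) < g ((⇑h)^[i] x) := by
      rw [Filter.eventually_all_finset]
      exact fun i hi => tendsto_one_div_add_atTop_nhds_zero_nat.eventually_lt_const
        (Finset.mem_filter.1 hi).2
    obtain ⟨k, hk⟩ := this.exists
    refine Set.mem_iUnion.2 ⟨k, (hc x).trans ?_⟩
    exact Nat.cast_le.2 (Finset.card_le_card fun i hi =>
      Finset.mem_filter.2 ⟨(Finset.mem_filter.1 hi).1, hk i hi⟩)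
  obtain ⟨k, hk⟩ := isCompact_univ.elim_directed_cover O hO hcov hmono.directed_le
  set η : ℝ := 1 / (k + 1)
  let G : X → ℕ → ℝ := fun x i => if η ≤ g ((⇑h)^[i] x) then 1 else 0
  have hG : ∀ x M, (((Finset.range M).filter fun i : ℕ => η ≤ g ((⇑h)^[i] x)).card : ℝ)
      = ∑ i ∈ Finset.range M, G x i := fun x M => by simp [G, Finset.sum_boole]
  have hwin : ∀ x, c * N₀ ≤ ∑ i ∈ Finset.range N₀, G x i := fun x => by
    rw [← hG]
    exact (show c * N₀ ≤ _ from hk (Set.mem_univ x)).trans (Nat.cast_le.2 (Finset.card_le_card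
      fun i hi => Finset.mem_filter.2 ⟨(Finset.mem_filter.1 hi).1, (Finset.mem_filter.1 hi).2.le⟩))
  have hblocks : ∀ t : ℕ, ∀ x, t * (c * N₀) ≤ ∑ i ∈ Finset.range (t * N₀), G x i := by
    intro t
    induction t with
    | zero => simp
    | succ t ih =>
      intro x
      rw [Nat.succ_mul, Finset.sum_range_add, Nat.cast_succ, add_mul, one_mul]
      refine add_le_add (ih x) ((hwin ((⇑h)^[t * N₀] x)).trans (le_of_eq ?_))
      refine Finset.sum_congr rfl fun i _ => ?_
      simp only [G]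
      rw [← Function.iterate_add_apply, add_comm i]
  refine ⟨η, by positivity, ⌈|c| * N₀ / ε⌉₊, fun x N hN => ?_⟩
  rw [hG]
  have hb := (hblocks (N / N₀) x).trans (Finset.sum_le_sum_of_subset_of_nonneg
    (Finset.range_mono (Nat.div_mul_le_self N N₀)) fun i _ _ => by simp only [G]; split_ifs <;> simp)
  have hN' : |c| * N₀ ≤ N * ε := (div_le_iff₀ hε).1 ((Nat.le_ceil _).trans (Nat.cast_le.2 hN))
  refine le_trans ?_ hb
  have h1 : (N : ℝ) = (N / N₀ : ℕ) * (N₀ : ℝ) + (N % N₀ : ℕ) := by
    exact_mod_cast (Nat.div_add_mod' N N₀).symm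
  have h2 : ((N % N₀ : ℕ) : ℝ) ≤ N₀ := Nat.cast_le.2 (Nat.mod_lt _ hN₀).le
  have h3 : c * (N % N₀ : ℕ) ≤ |c| * N₀ :=
    mul_le_mul (le_abs_self c) h2 (by positivity) (abs_nonneg c)
  have h4 : c * N = c * ((N / N₀ : ℕ) * (N₀ : ℝ)) + c * (N % N₀ : ℕ) := by rw [← mul_add, ← h1]
  linarith

end

end P093.Rep
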