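import Mathlib

/-!
# P093: the regular covariant pair of a homeomorphism on ℓ²(ℤ)
-/

namespace P093.Rep

open scoped ENNReal ComplexConjugate InnerProductSpace
open ContinuousLinearMap

noncomputable section

/-- ℓ²(ℤ). -/
abbrev H := lp (fun _ : ℤ => ℂ) 2

theorem memℓp_mul (a : ℤ → ℂ) (C : ℝ) (hC : ∀ n, ‖a n‖ ≤ C) (f : H) :
    Memℓp (fun n => a n * f n) 2 := by
  refine Memℓp.mono' ((lp.memℓp f).norm.const_smul C) fun n => ?_
  simpa using mul_le_mul_of_nonneg_right ((hC n).trans (le_abs_self C)) (norm_nonneg (f n))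

def mulOp (a : ℤ → ℂ) (C : ℝ) (hC : ∀ n, ‖a n‖ ≤ C) : H →L[ℂ] H :=
  LinearMap.mkContinuous
    { toFun := fun f => ⟨fun n => a n * f n, memℓp_mul a C hC f⟩
      map_add' := fun f g => lp.ext (funext fun n => mul_add _ _ _)
      map_smul' := fun c f => lp.ext (funext fun n => mul_left_comm _ _ _) }
    C fun f => by
      have h0 : 0 ≤ C := (norm_nonneg _).trans (hC 0)
      refine le_trans (lp.norm_mono (y := C • f) ?_ fun n => ?_) ?_
      · norm_num
      · simp only [LinearMap.coe_mk, AddHom.coe_mk, lp.coeFn_smul, Pi.smul_apply, norm_smul,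
          norm_mul, Real.norm_eq_abs, abs_of_nonneg h0]
        exact mul_le_mul_of_nonneg_right (hC n) (norm_nonneg _)
      · rw [norm_smul, Real.norm_eq_abs, abs_of_nonneg h0]

@[simp] theorem mulOp_apply (a : ℤ → ℂ) (C : ℝ) (hC : ∀ n, ‖a n‖ ≤ C) (f : H) (n : ℤ) :
    mulOp a C hC f n = a n * f n := rfl

theorem memℓp_shift (k : ℤ) (f : H) : Memℓp (fun n => f (n - k)) 2 := by
  apply memℓp_gen
  exact ((lp.memℓp f).summable (by norm_num)).comp_injective (Equiv.subRight k).injective

def shiftLM (k : ℤ) : H →ₗ[ℂ] H where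
  toFun f := ⟨fun n => f (n - k), memℓp_shift k f⟩
  map_add' _ _ := lp.ext rfl
  map_smul' _ _ := lp.ext rfl

def shiftOp (k : ℤ) : H →L[ℂ] H :=
  (shiftLM k).mkContinuous 1 fun f => by
    rw [one_mul]
    refine lp.norm_le_of_forall_sum_le (by norm_num) (norm_nonneg _) fun s => ?_
    have := lp.sum_rpow_le_norm_rpow (p := (2 : ℝ≥0∞)) (by norm_num) f
      (s.map (Equiv.subRight k).toEmbedding)
    rw [Finset.sum_map] at this
    exact this

@[simp] theorem shiftOp_apply (k : ℤ) (f : H) (n : ℤ) : shiftOp k f n = f (n - k) := rfl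

theorem shiftOp_mul (j k : ℤ) : shiftOp j * shiftOp k = shiftOp (j + k) := by
  ext f n
  simp [sub_sub]

theorem shiftOp_zero : shiftOp 0 = 1 := by
  ext f n
  simp

theorem star_shiftOp (k : ℤ) : star (shiftOp k) = shiftOp (-k) := by
  rw [star_eq_adjoint, eq_comm, eq_adjoint_iff]
  intro f g
  rw [lp.inner_eq_tsum, lp.inner_eq_tsum,
    ← Equiv.tsum_eq (Equiv.subRight k) (fun n => ⟪shiftOp (-k) f n, g n⟫_ℂ)]
  exact tsum_congr fun n => by simp

/-- The shift as a unitary. -/
def shiftU : unitary (H →L[ℂ] H) :=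
  ⟨shiftOp 1, by
    constructor <;> rw [star_shiftOp, shiftOp_mul] <;> simp [shiftOp_zero]⟩

variable {X : Type*} [TopologicalSpace X]

/-- The orbit of a point, indexed by integers. -/
def orb (h : X ≃ₜ X) (x : X) (n : ℤ) : X := (h.toEquiv ^ n : Equiv.Perm X) x

theorem orb_zero (h : X ≃ₜ X) (x : X) : orb h x 0 = x := by simp [orb]

theorem orb_succ (h : X ≃ₜ X) (x : X) (n : ℤ) : orb h x (n + 1) = h (orb h x n) := by
  simp [orb, add_comm n 1, zpow_add]

theorem orb_sub_one (h : X ≃ₜ X) (x : X) (n : ℤ) : orb h x (n - 1) = h.symm (orb h x n) := by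
  rw [← h.symm_apply_apply (orb h x (n - 1)), ← orb_succ, sub_add_cancel]

theorem orb_nat (h : X ≃ₜ X) (x : X) (n : ℕ) : orb h x (n : ℤ) = h^[n] x := by
  induction n with
  | zero => simp [orb_zero]
  | succ n ih => rw [Nat.cast_succ, orb_succ, ih, Function.iterate_succ_apply']

variable [CompactSpace X]

/-- The diagonal representation at the orbit of `x`. -/
def diag (h : X ≃ₜ X) (x : X) : C(X, ℂ) →⋆ₐ[ℂ] (H →L[ℂ] H) where
  toFun f := mulOp (fun n => f (orb h x n)) ‖f‖ fun n => f.norm_coe_le_norm _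
  map_one' := by ext f n; simp
  map_mul' f g := by ext ξ n; simp [mul_assoc]
  map_zero' := by ext f n; simp
  map_add' f g := by ext ξ n; simp [add_mul]
  commutes' c := by ext ξ n; simp [Algebra.algebraMap_eq_smul_one]
  map_star' f := by
    rw [star_eq_adjoint, eq_adjoint_iff]
    intro ξ η
    rw [lp.inner_eq_tsum, lp.inner_eq_tsum]
    exact tsum_congr fun n => by simp; ring

@[simp] theorem diag_apply (h : X ≃ₜ X) (x : X) (f : C(X, ℂ)) (ξ : H) (n : ℤ) :
    diag h x f ξ n = f (orb h x n) * ξ n := rfl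

/-- Covariance: conjugation by the shift composes with the inverse homeomorphism. -/
theorem shift_mul_diag (h : X ≃ₜ X) (x : X) (f : C(X, ℂ)) :
    (shiftU : H →L[ℂ] H) * diag h x f * star (shiftU : H →L[ℂ] H)
      = diag h x (f.comp (h.symm : C(X, X))) := by
  show shiftOp 1 * diag h x f * star (shiftOp 1) = _
  rw [star_shiftOp]
  ext ξ n
  simp [orb_sub_one]

/-- Matrix coefficient of an operator. -/
def coeff (T : H →L[ℂ] H) (i j : ℤ) : ℂ := T (lp.single 2 j 1) i

theorem norm_coeff_le (T : H →L[ℂ] H) (i j : ℤ) : ‖coeff T i j‖ ≤ ‖T‖ := by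
  refine (lp.norm_apply_le_norm (by norm_num) _ i).trans ?_
  refine (T.le_opNorm _).trans ?_
  rw [lp.norm_single (by norm_num), norm_one, mul_one]

theorem coeff_diag_shift (h : X ≃ₜ X) (x : X) (f : C(X, ℂ)) (k i j : ℤ) :
    coeff (diag h x f * shiftOp k) i j = if i = j + k then f (orb h x i) else 0 := by
  simp only [coeff, mul_apply_eq_comp, diag_apply, shiftOp_apply, lp.single_apply]
  by_cases hk : i = j + k
  · subst hk; simp
  · rw [if_neg hk, Pi.single_eq_of_ne (by omega), mul_zero]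

end

end P093.Rep
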