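import Vale.Agent.P093.Rep.Compress

/-!
# P093: a universal covariant pair has orbit representations
-/

namespace P093.Rep

noncomputable section

variable {X : Type*} [TopologicalSpace X] [CompactSpace X] {h : X ≃ₜ X}
  {A : Type*} [CStarAlgebra A]

/-- Generation and universality (only for representations on ℓ²(ℤ)) give orbit representations. -/
def OrbitRep.ofUniversal (ι : C(X, ℂ) →⋆ₐ[ℂ] A) (u : unitary A)
    (gen : (StarAlgebra.adjoin ℂ (Set.range ι ∪ {(u : A)})).topologicalClosure = ⊤)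
    (univ : ∀ (φ : C(X, ℂ) →⋆ₐ[ℂ] (H →L[ℂ] H)) (v : unitary (H →L[ℂ] H)),
      (∀ f, (v : H →L[ℂ] H) * φ f * star (v : H →L[ℂ] H) = φ (f.comp (h.symm : C(X, X)))) →
        ∃ π : A →⋆ₐ[ℂ] (H →L[ℂ] H), (∀ f, π (ι f) = φ f) ∧ π u = v) :
    OrbitRep h A where
  ι := ι
  u := u
  π x := (univ (diag h x) shiftU (shift_mul_diag h x)).choose
  π_ι x := (univ (diag h x) shiftU (shift_mul_diag h x)).choose_spec.1
  π_u x := (univ (diag h x) shiftU (shift_mul_diag h x)).choose_spec.2
  gen := gen

omit [CompactSpace X] in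
/-- A tracial functional restricts to an invariant functional on the functions. -/
theorem trace_comp (ι : C(X, ℂ) →⋆ₐ[ℂ] A) (u : unitary A)
    (cov : ∀ f, (u : A) * ι f * star (u : A) = ι (f.comp (h.symm : C(X, X))))
    {τ : A → ℂ} (htr : ∀ a b, τ (a * b) = τ (b * a)) (f : C(X, ℂ)) :
    τ (ι (f.comp (h : C(X, X)))) = τ (ι f) := by
  have := cov (f.comp (h : C(X, X)))
  rw [show (f.comp (h : C(X, X))).comp (h.symm : C(X, X)) = f from
    ContinuousMap.ext fun x => congrArg f (h.apply_symm_apply x)] at this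
  rw [← this, htr, ← mul_assoc, Unitary.coe_star_mul_self, one_mul]

end

end P093.Rep
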